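import Mathlib

/-!
Copies of good blocks with distinct residues inside each slot.
-/

open Finset

namespace Vale.Agent.P110.Exist.Tiling

/-- The position of a point in a finite set. -/
noncomputable def place {X : Type} [DecidableEq X] (T : Finset X) (p : X) : ℕ :=
  if h : p ∈ T then (T.equivFin ⟨p, h⟩ : ℕ) else 0

lemma place_injOn {X : Type} [DecidableEq X] (T : Finset X) : Set.InjOn (place T) T := by
  intro p hp q hq h
  simp only [mem_coe] at hp hq
  simp only [place, dif_pos hp, dif_pos hq] at h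
  exact congrArg Subtype.val (T.equivFin.injective (Fin.ext h))

lemma card_place_ge {X : Type} [DecidableEq X] (T : Finset X) (m : ℕ) :
    #(T.filter fun p => m ≤ place T p) ≤ #T - m := by
  rw [← Nat.card_Ico]
  refine card_le_card_of_injOn (place T) (fun p hp => ?_)
    ((place_injOn T).mono (coe_subset.2 (filter_subset _ _)))
  simp only [coe_filter, Set.mem_ofPred_eq] at hp
  simp only [coe_Ico, Set.mem_Ico, hp.2, true_and]
  rw [place, dif_pos hp.1]
  exact (T.equivFin ⟨p, hp.1⟩).isLt

/-- Every good block gets `R` copies; those past the capacity `Q n` of one of their slots are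
dropped, and the rest get residues below `Q n`, distinct within each slot. -/
theorem exists_copies {σ β γ : Type} [DecidableEq γ] (S : Finset σ) (G : Finset β)
    (slot : σ → β → γ) (Q : σ → ℕ) (R : ℕ) :
    ∃ (Nb : ℕ) (b : Fin Nb → β) (r : Fin Nb → σ → ℕ), (∀ i, b i ∈ G) ∧
      (∀ i, ∀ n ∈ S, r i n < Q n) ∧
      (∀ i i', ∀ n ∈ S, slot n (b i) = slot n (b i') → r i n = r i' n → i = i') ∧
      Nb ≤ R * #G ∧
      R * #G ≤ Nb + ∑ n ∈ S, ∑ a ∈ G.image (slot n), (R * #{x ∈ G | slot n x = a} - Q n) := by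
  classical
  set T : σ → γ → Finset (β × ℕ) := fun n a => {x ∈ G | slot n x = a} ×ˢ range R with hT
  set P := G ×ˢ range R with hP
  set K := P.filter fun p => ∀ n ∈ S, place (T n (slot n p.1)) p < Q n with hK
  have hPc : #P = R * #G := by rw [hP, card_product, card_range, mul_comm]
  have hmem : ∀ i, (K.equivFin.symm i).1 ∈ P ∧
      ∀ n ∈ S, place (T n (slot n (K.equivFin.symm i).1.1)) (K.equivFin.symm i).1 < Q n :=
    fun i => mem_filter.1 (K.equivFin.symm i).2
  refine ⟨#K, fun i => (K.equivFin.symm i).1.1,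
    fun i n => place (T n (slot n (K.equivFin.symm i).1.1)) (K.equivFin.symm i).1,
    fun i => (mem_product.1 (hmem i).1).1, fun i => (hmem i).2, fun i i' n _ hs hr => ?_,
    hPc ▸ card_filter_le _ _, ?_⟩
  · refine K.equivFin.symm.injective (Subtype.ext (place_injOn (T n _) ?_ ?_ (hr.trans ?_)))
    · exact mem_product.2 ⟨mem_filter.2 ⟨(mem_product.1 (hmem i).1).1, rfl⟩,
        (mem_product.1 (hmem i).1).2⟩
    · exact mem_product.2 ⟨mem_filter.2 ⟨(mem_product.1 (hmem i').1).1, hs.symm⟩,
        (mem_product.1 (hmem i').1).2⟩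
    · rw [hs]
  · rw [← hPc, ← card_sdiff_add_card_eq_card (filter_subset _ P : K ⊆ P), add_comm]
    refine Nat.add_le_add_left ?_ _
    have hsub : P \ K ⊆ S.biUnion fun n => (G.image (slot n)).biUnion fun a =>
        (T n a).filter fun p => Q n ≤ place (T n a) p := by
      intro p hp
      obtain ⟨hp1, hp2⟩ := mem_sdiff.1 hp
      obtain ⟨n, hn, hq⟩ : ∃ n ∈ S, Q n ≤ place (T n (slot n p.1)) p := by
        by_contra hc
        refine hp2 (mem_filter.2 ⟨hp1, fun n hn => ?_⟩)
        by_contra h2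
        exact hc ⟨n, hn, not_lt.1 h2⟩
      obtain ⟨hg, hr⟩ := mem_product.1 hp1
      exact mem_biUnion.2 ⟨n, hn, mem_biUnion.2 ⟨_, mem_image_of_mem _ hg,
        mem_filter.2 ⟨mem_product.2 ⟨mem_filter.2 ⟨hg, rfl⟩, hr⟩, hq⟩⟩⟩
    refine ((card_le_card hsub).trans card_biUnion_le).trans (sum_le_sum fun n _ =>
      card_biUnion_le.trans (sum_le_sum fun a _ => (card_place_ge _ _).trans (le_of_eq ?_)))
    rw [hT, card_product, card_range, mul_comm]

end Vale.Agent.P110.Exist.Tiling
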