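import Vale.Agent.P110.Exist.Tiling.Coincide

/-!
A colouring for which every fibre holds almost its expected number of good points.
-/

open Finset

namespace Vale.Agent.P110.Exist.Tiling

variable {D : ℕ} {S : Finset (Fin D → ℤ)}

/-- A colour: a member of `S` and a direction. -/
abbrev Col (S : Finset (Fin D → ℤ)) : Type := {n // n ∈ S} × Bool

/-- The weight of a colour. -/
noncomputable def wt (p : (Fin D → ℤ) → ℝ) (x : Col S) : ℝ := p x.1 / 2

/-- The colour that makes the tile `s` a forward tile of `n`. -/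
noncomputable def col (hS : S.Nonempty) {H : ℕ} (n : Fin D → ℤ) (s : ZMod (2 * H)) : Col S :=
  (if h : n ∈ S then ⟨n, h⟩ else ⟨hS.choose, hS.choose_spec⟩, decide (s.val < H))

/-- The tile of `n` at the point `y`, before folding. -/
def tileS {H : ℕ} (q : (Fin D → ℤ) → ℕ) (n : Fin D → ℤ) (y : Fin D → ZMod (2 * H)) :
    ZMod (2 * H) := dotZ n y + (q n : ZMod (2 * H))

/-- A point all of whose tiles are forward tiles. -/
def Good (hS : S.Nonempty) {H : ℕ} [NeZero H] (q : (Fin D → ℤ) → ℕ) (ω : Fin H → Col S)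
    (y : Fin D → ZMod (2 * H)) : Prop :=
  ∀ n ∈ S, ω (fold (tileS q n y)) = col hS n (tileS q n y)

variable {p : (Fin D → ℤ) → ℝ}

lemma sum_wt (hp : ∑ n ∈ S, p n = 1) : ∑ x, wt (S := S) p x = 1 := by
  simp only [wt, Fintype.sum_prod_type, Fintype.sum_bool, add_halves]
  rw [← hp, ← sum_attach S p]
  rfl

lemma wt_col (hS : S.Nonempty) {H : ℕ} {n : Fin D → ℤ} (hn : n ∈ S) (s : ZMod (2 * H)) :
    wt p (col hS n s) = p n / 2 := by
  simp [wt, col, hn]

lemma goodI_eq (hS : S.Nonempty) {H : ℕ} [NeZero H] (q : (Fin D → ℤ) → ℕ) (ω : Fin H → Col S)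
    (y : Fin D → ZMod (2 * H)) [Decidable (Good hS q ω y)] :
    goodI S (tileAt q y) (fun n => col hS n (tileS q n y)) ω =
      if Good hS q ω y then 1 else 0 := by
  classical
  unfold goodI hit
  rw [prod_boole]
  exact if_congr Iff.rfl rfl rfl

/-- The colours of the two halves: every coordinate gives one forward tile. -/
theorem card_forward (hS : S.Nonempty) {H : ℕ} [NeZero H] (ω : Fin H → Col S) :
    ∑ n ∈ S, #{s : ZMod (2 * H) | ω (fold s) = col hS n s} = H := by
  classical
  have hH := NeZero.pos H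
  rw [← card_biUnion fun a ha b hb hab => ?_]
  · refine Eq.trans ?_ (card_fin H)
    refine card_bij (fun s _ => fold s) (fun _ _ => mem_univ _) (fun s hs s' hs' e => ?_)
      fun k _ => ?_
    · simp only [mem_biUnion, mem_filter, mem_univ, true_and] at hs hs'
      obtain ⟨a, ha, hs⟩ := hs
      obtain ⟨b, hb, hs'⟩ := hs'
      have hside : s.val < H ↔ s'.val < H := by
        have h2 := congrArg Prod.snd (hs.symm.trans ((congrArg ω e).trans hs'))
        simpa [col] using h2
      have hv := Fin.ext_iff.1 e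
      simp only [fold] at hv
      refine ZMod.val_injective _ ?_
      have := ZMod.val_lt s
      have := ZMod.val_lt s'
      split_ifs at hv <;> omega
    · set u : ℕ := if (ω k).2 then k else 2 * H - 1 - k
      have hu : u < 2 * H := by simp only [u]; split_ifs <;> omega
      have huv : (u : ZMod (2 * H)).val = u := ZMod.val_natCast_of_lt hu
      have hf : fold (u : ZMod (2 * H)) = k := by
        ext
        simp only [fold, huv, u]
        have := k.isLt
        split_ifs <;> omega
      refine ⟨u, mem_biUnion.2 ⟨_, (ω k).1.2, mem_filter.2 ⟨mem_univ _, ?_⟩⟩, hf⟩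
      rw [hf]
      refine Prod.ext (Subtype.ext (by simp [col])) ?_
      simp only [col, huv, u]
      have := k.isLt
      rcases (ω k).2 with _ | _ <;> simp <;> omega
  · rw [Function.onFun, disjoint_left]
    intro s h1 h2
    simp only [mem_filter, mem_univ, true_and] at h1 h2
    have := congrArg (fun x : Col S => x.1.1) (h1.symm.trans h2)
    simp only [col, dif_pos (mem_coe.1 ha), dif_pos (mem_coe.1 hb)] at this
    exact hab this

open Classical in
/-- **The choice.** For `H` large some colouring has small total deviation on all fibres. -/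
theorem exists_colouring (hD : 2 ≤ D) (hS : S.Nonempty)
    (hprim : ∀ n ∈ S, ∃ z : Fin D → ℤ, ∑ i, n i * z i = 1) (hneg : ∀ n ∈ S, -n ∉ S)
    (hp0 : ∀ n ∈ S, 0 < p n) (hp : ∑ n ∈ S, p n = 1) {J : Type} [Fintype J]
    (q : J → (Fin D → ℤ) → ℕ) {ε : ℝ} (hε : 0 < ε) :
    ∃ (H : ℕ) (_ : NeZero H) (ω : Fin H → Col S),
      ∑ n ∈ S, ∑ j, ∑ s : ZMod (2 * H),
        |(#{y | tileS (q j) n y = s ∧ Good hS (q j) ω y} : ℝ) -
          (∏ n' ∈ S.erase n, p n' / 2) * ((2 * H : ℕ) : ℝ) ^ (D - 1) *
            (if ω (fold s) = col hS n s then 1 else 0)| ≤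
        ε * (2 * H * Fintype.card J * ((2 * H : ℕ) : ℝ) ^ (D - 1) * ∏ n ∈ S, p n / 2) := by
  obtain ⟨C, hC⟩ := exists_coincide_le hD S hprim hneg
  have hπ : 0 < ∏ n ∈ S, p n / 2 := prod_pos fun n hn => by have := hp0 n hn; positivity
  obtain ⟨H0, hH0⟩ := exists_nat_ge ((C : ℝ) * (#S / (ε * ∏ n ∈ S, p n / 2)) ^ 2)
  refine ⟨H0 + 1, inferInstance, ?_⟩
  set H := H0 + 1
  set N : ℝ := ((2 * H : ℕ) : ℝ) ^ (D - 1)
  set P : Col S → ℝ := wt p
  have hP0 : ∀ x, 0 ≤ P x := fun x => (half_pos (hp0 _ x.1.2)).le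
  have hP1 : ∑ x, P x = 1 := sum_wt hp
  set Z : (Fin H → Col S) → ℝ := fun ω => ∑ n ∈ S, ∑ j, ∑ s : ZMod (2 * H),
    |∑ y ∈ ({y : Fin D → ZMod (2 * H) | tileS (q j) n y = s} : Finset _),
      dev P S n (tileAt (q j) y) (fun n' => col hS n' (tileS (q j) n' y)) ω|
  obtain ⟨ω, hω⟩ := exists_le_avg hP0 hP1 Z
  refine ⟨ω, le_of_eq_of_le ?_ (hω.trans ?_)⟩
  · refine sum_congr rfl fun n hn => sum_congr rfl fun j _ => sum_congr rfl fun s _ => ?_
    refine congrArg abs ?_
    obtain ⟨z, hz⟩ := hprim n hn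
    have hcard : (#({y : Fin D → ZMod (2 * H) | tileS (q j) n y = s}) : ℝ) = N := by
      have h := card_fibre hz (s - (q j n : ZMod (2 * H)))
      rw [show (2 * H) ^ D = (2 * H) ^ (D - 1) * (2 * H) by rw [← pow_succ]; congr 1; omega] at h
      simp only [N, ← Nat.cast_pow, Nat.cast_inj, ← Nat.eq_of_mul_eq_mul_right (NeZero.pos _) h]
      refine congrArg card (filter_congr fun y _ => ?_)
      simp [tileS, eq_sub_iff_add_eq]
    have e : ∀ y ∈ ({y : Fin D → ZMod (2 * H) | tileS (q j) n y = s} : Finset _),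
        dev P S n (tileAt (q j) y) (fun n' => col hS n' (tileS (q j) n' y)) ω =
          (if Good hS (q j) ω y then (1 : ℝ) else 0) -
            (∏ n' ∈ S.erase n, p n' / 2) * (if ω (fold s) = col hS n s then 1 else 0) := by
      intro y hy
      have hys := (mem_filter.1 hy).2
      rw [dev, goodI_eq, prod_congr rfl fun n' hn' => wt_col hS (mem_of_mem_erase hn') _]
      simp only [hit, hys, show tileAt (q j) y n = fold s from congrArg fold hys]
    rw [sum_congr rfl e, sum_sub_distrib, sum_const, nsmul_eq_mul, hcard, ← sum_filter, sum_const,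
      nsmul_one, filter_filter]
    ring
  · simp only [Z, avg_sum]
    have hN : 0 ≤ N := by positivity
    refine (sum_le_sum (g := fun _ => (Fintype.card J : ℝ) * (√((C : ℝ) * (2 * H : ℕ)) * N))
      fun n hn => (sum_le_sum (g := fun _ => √((C : ℝ) * (2 * H : ℕ)) * N) fun j _ => ?_).trans
        (le_of_eq (by simp))).trans ?_
    · set B : Finset ((Fin D → ZMod (2 * H)) × (Fin D → ZMod (2 * H))) :=
        {x | dotZ n x.1 = dotZ n x.2 ∧ ¬ Apart S n (tileAt (q j) x.1) (tileAt (q j) x.2)}
      set β : ZMod (2 * H) → ℕ := fun s => #(B.filter fun x => tileS (q j) n x.1 = s)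
      refine (sum_le_sum (g := fun s => √(β s : ℝ)) fun s _ => (avg_abs_le hP0 hP1 _).trans
        (Real.sqrt_le_sqrt ?_)).trans ?_
      · refine avg_sq_le hP0 hP1 hn _ (fun y => tileAt (q j) y)
          (fun y n' => col hS n' (tileS (q j) n' y)) (fold s) (col hS n s)
          (fun y hy => congrArg fold (mem_filter.1 hy).2)
          (fun y hy => congrArg (col hS n) (mem_filter.1 hy).2) _ fun y hy y' hy' hna => ?_
        have h1 := (mem_filter.1 hy).2
        have h2 := (mem_filter.1 hy').2
        simp only [mem_filter, mem_univ, true_and, B]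
        exact ⟨⟨add_right_cancel (h1.trans h2.symm), hna⟩, h1⟩
      · have hsum : ∑ s, (β s : ℝ) ≤ (C : ℝ) * N ^ 2 := by
          have h := (card_eq_sum_card_fiberwise (s := B) (t := univ)
            (f := fun x => tileS (q j) n x.1) fun _ _ => mem_coe.2 (mem_univ _)).symm.trans_le
              (hC H (q j) n hn B fun x hx => (mem_filter.1 hx).2)
          simp only [N, ← pow_mul, show (D - 1) * 2 = 2 * D - 2 by omega]
          exact_mod_cast h
        have hs := sum_mul_sq_le_sq_mul_sq univ (fun _ : ZMod (2 * H) => (1 : ℝ))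
          fun s => √(β s : ℝ)
        simp only [one_mul, one_pow, sum_const, card_univ, ZMod.card, nsmul_eq_mul, mul_one,
          Real.sq_sqrt (Nat.cast_nonneg _)] at hs
        refine (Real.le_sqrt_of_sq_le hs).trans ((Real.sqrt_le_sqrt
          (mul_le_mul_of_nonneg_left hsum (Nat.cast_nonneg _))).trans (le_of_eq ?_))
        rw [mul_left_comm, ← mul_assoc, Real.sqrt_mul (by positivity), Real.sqrt_sq hN]
    · rw [sum_const, nsmul_eq_mul]
      set π := ∏ n ∈ S, p n / 2
      have hHr : (C : ℝ) * (#S / (ε * π)) ^ 2 ≤ 2 * H :=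
        hH0.trans (by simp only [H]; push_cast; linarith [H0.cast_nonneg (α := ℝ)])
      have key : (#S : ℝ) * √((C : ℝ) * (2 * H : ℕ)) ≤ ε * (2 * H) * π := by
        rw [div_pow, mul_div, div_le_iff₀ (by positivity)] at hHr
        rw [← Real.sqrt_sq (Nat.cast_nonneg (α := ℝ) #S), ← Real.sqrt_mul (sq_nonneg _),
          Real.sqrt_le_left (by positivity)]
        push_cast
        nlinarith [mul_le_mul_of_nonneg_left hHr (show (0 : ℝ) ≤ 2 * H by positivity)]
      calc (#S : ℝ) * ((Fintype.card J : ℝ) * (√((C : ℝ) * (2 * H : ℕ)) * N))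
          = (Fintype.card J : ℝ) * N * ((#S : ℝ) * √((C : ℝ) * (2 * H : ℕ))) := by ring
        _ ≤ (Fintype.card J : ℝ) * N * (ε * (2 * H) * π) :=
            mul_le_mul_of_nonneg_left key (by positivity)
        _ = _ := by simp only [N]; ring

end Vale.Agent.P110.Exist.Tiling
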