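import Vale.Agent.P110.Exist.Tiling.Expect

/-!
The second moment of the number of good points of a fibre.
-/

open Finset

namespace Vale.Agent.P110.Exist.Tiling

variable {H : ℕ} {κ : Type} [Fintype κ] [DecidableEq κ] {σ : Type} [DecidableEq σ]

/-- The indicator that coordinate `t` has colour `c`. -/
def hit (t : Fin H) (c : κ) (ω : Fin H → κ) : ℝ := if ω t = c then 1 else 0

/-- The indicator that every coordinate of a point has its colour. -/
def goodI (S : Finset σ) (t : σ → Fin H) (c : σ → κ) (ω : Fin H → κ) : ℝ :=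
  ∏ n ∈ S, hit (t n) (c n) ω

/-- The deviation of a point from its conditional mean given the colour at `n₀`. -/
def dev (P : κ → ℝ) (S : Finset σ) (n₀ : σ) (t : σ → Fin H) (c : σ → κ) (ω : Fin H → κ) : ℝ :=
  goodI S t c ω - (∏ n ∈ S.erase n₀, P (c n)) * hit (t n₀) (c n₀) ω

/-- Two points of one fibre with distinct coordinates apart from the shared one. -/
def Apart (S : Finset σ) (n₀ : σ) (t t' : σ → Fin H) : Prop :=
  Set.InjOn t S ∧ Set.InjOn t' S ∧ ∀ n ∈ S.erase n₀, ∀ n' ∈ S.erase n₀, t n ≠ t' n'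

omit [DecidableEq σ] in
lemma sum_mul_hit {P : κ → ℝ} (c : κ) : ∑ x, P x * (if x = c then (1 : ℝ) else 0) = P c := by
  simp

lemma avg_hit {P : κ → ℝ} (h1 : ∑ x, P x = 1) (t : Fin H) (c : κ) : avg P (hit t c) = P c := by
  have := avg_prod (H := H) h1 {t} fun _ x => if x = c then (1 : ℝ) else 0
  simp only [prod_singleton, sum_mul_hit] at this
  exact this

omit [DecidableEq σ] in
lemma avg_goodI {P : κ → ℝ} (h1 : ∑ x, P x = 1) (S : Finset σ) (t : σ → Fin H)
    (ht : Set.InjOn t S) (c : σ → κ) : avg P (goodI S t c) = ∏ n ∈ S, P (c n) := by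
  have := avg_prod_map h1 S t ht fun n x => if x = c n then (1 : ℝ) else 0
  simp only [sum_mul_hit] at this
  exact this

omit [Fintype κ] in
lemma goodI_mul_hit {S : Finset σ} {n₀ : σ} (h₀ : n₀ ∈ S) (t : σ → Fin H) (c : σ → κ)
    (ω : Fin H → κ) : goodI S t c ω * hit (t n₀) (c n₀) ω = goodI S t c ω := by
  rw [goodI, ← mul_prod_erase S _ h₀]
  by_cases h : ω (t n₀) = c n₀ <;> simp [hit, h]

omit [Fintype κ] [DecidableEq σ] in
lemma goodI_mem (S : Finset σ) (t : σ → Fin H) (c : σ → κ) (ω : Fin H → κ) :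
    0 ≤ goodI S t c ω ∧ goodI S t c ω ≤ 1 := by
  have h : ∀ n ∈ S, 0 ≤ hit (t n) (c n) ω ∧ hit (t n) (c n) ω ≤ 1 := fun n _ => by
    unfold hit; split_ifs <;> simp
  exact ⟨prod_nonneg fun n hn => (h n hn).1,
    prod_le_one (fun n hn => (h n hn).1) fun n hn => (h n hn).2⟩

lemma abs_dev_le {P : κ → ℝ} (h0 : ∀ x, 0 ≤ P x) (h1 : ∑ x, P x = 1) (S : Finset σ) (n₀ : σ)
    (t : σ → Fin H) (c : σ → κ) (ω : Fin H → κ) : |dev P S n₀ t c ω| ≤ 1 := by
  obtain ⟨g0, g1⟩ := goodI_mem S t c ω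
  have p0 : 0 ≤ ∏ n ∈ S.erase n₀, P (c n) := prod_nonneg fun n _ => h0 _
  have p1 : ∏ n ∈ S.erase n₀, P (c n) ≤ 1 := prod_le_one (fun n _ => h0 _) fun n _ =>
    h1 ▸ single_le_sum (fun x _ => h0 x) (mem_univ (c n))
  unfold dev hit
  split_ifs <;> rw [abs_le] <;> constructor <;> linarith

/-- Points that are apart have uncorrelated deviations. -/
theorem avg_dev_mul {P : κ → ℝ} (h1 : ∑ x, P x = 1) {S : Finset σ} {n₀ : σ} (h₀ : n₀ ∈ S)
    {t t' : σ → Fin H} {c c' : σ → κ} (ht : t' n₀ = t n₀) (hc : c' n₀ = c n₀)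
    (h : Apart S n₀ t t') :
    avg P (fun ω => dev P S n₀ t c ω * dev P S n₀ t' c' ω) = 0 := by
  obtain ⟨hi, hi', hd⟩ := h
  set p := ∏ n ∈ S.erase n₀, P (c n) with hp
  set p' := ∏ n ∈ S.erase n₀, P (c' n) with hp'
  set I := hit (t n₀) (c n₀) with hI
  set F := goodI S t c
  set F' := goodI S t' c'
  -- the product of both points, over the shared coordinate and the rest
  set U : Finset (σ × Bool) := S ×ˢ {true} ∪ (S.erase n₀) ×ˢ {false}
  set u : σ × Bool → Fin H := fun x => if x.2 then t x.1 else t' x.1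
  set w : σ × Bool → κ := fun x => if x.2 then c x.1 else c' x.1
  have hU : Disjoint (S ×ˢ ({true} : Finset Bool)) ((S.erase n₀) ×ˢ ({false} : Finset Bool)) := by
    rw [disjoint_left]
    intro x hx hy
    simp only [mem_product, mem_singleton] at hx hy
    simp [hx.2] at hy
  have hu : Set.InjOn u U := by
    rintro ⟨a, x⟩ ha ⟨b, y⟩ hb e
    simp only [U, mem_coe, mem_union, mem_product, mem_singleton] at ha hb
    rcases ha with ⟨ha, rfl⟩ | ⟨ha, rfl⟩ <;> rcases hb with ⟨hb, rfl⟩ | ⟨hb, rfl⟩ <;>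
      simp only [u, if_true, Bool.false_eq_true, if_false] at e
    · rw [hi ha hb e]
    · exfalso
      by_cases hn : a = n₀
      · subst hn
        exact (ne_of_mem_erase hb) (hi' (mem_of_mem_erase hb) h₀ (by rw [← e, ht]))
      · exact hd a (mem_erase.2 ⟨hn, ha⟩) b hb e
    · exfalso
      by_cases hn : b = n₀
      · subst hn
        exact (ne_of_mem_erase ha) (hi' (mem_of_mem_erase ha) h₀ (by rw [e, ht]))
      · exact hd b (mem_erase.2 ⟨hn, hb⟩) a ha e.symm
    · rw [hi' (mem_of_mem_erase ha) (mem_of_mem_erase hb) e]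
  have eUω : ∀ ω, goodI U u w ω = F ω * F' ω := fun ω => by
    have e' : F' ω = I ω * ∏ n ∈ S.erase n₀, hit (t' n) (c' n) ω := by
      simp only [F', goodI, hI, ← mul_prod_erase S _ h₀, ht, hc]
    rw [e', ← mul_assoc, hI, goodI_mul_hit h₀]
    simp only [goodI, U, prod_union hU, prod_product, prod_singleton, u, w, if_true,
      Bool.false_eq_true, if_false]
  have eU : avg P (fun ω => F ω * F' ω) = P (c n₀) * p * p' := by
    rw [← funext eUω, show avg P (fun ω => goodI U u w ω) = _ from avg_goodI h1 U u hu w]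
    simp only [U, prod_union hU, prod_product, prod_singleton, w, if_true, Bool.false_eq_true,
      if_false, hp, hp', mul_prod_erase S (fun n => P (c n)) h₀]
  have eF : avg P F = P (c n₀) * p := by
    rw [avg_goodI h1 S t hi, hp, mul_prod_erase S (fun n => P (c n)) h₀]
  have eF' : avg P F' = P (c n₀) * p' := by
    rw [avg_goodI h1 S t' hi', hp', ← hc, mul_prod_erase S (fun n => P (c' n)) h₀]
  have e : ∀ ω, dev P S n₀ t c ω * dev P S n₀ t' c' ω =
      F ω * F' ω + (-p') * F ω + (-p) * F' ω + p * p' * I ω := fun ω => by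
    have h2 : F' ω * I ω = F' ω := by
      simpa [F', hI, ht, hc] using goodI_mul_hit h₀ t' c' ω
    have h3 : F ω * I ω = F ω := by simpa [F, hI] using goodI_mul_hit h₀ t c ω
    have h4 : I ω * I ω = I ω := by simp [hI, hit]
    simp only [dev, ht, hc, ← hp, ← hp', ← hI]
    calc (F ω - p * I ω) * (F' ω - p' * I ω)
        = F ω * F' ω - p' * (F ω * I ω) - p * (F' ω * I ω) + p * p' * (I ω * I ω) := by ring
      _ = _ := by rw [h2, h3, h4]; ring
  simp only [e, avg_add, avg_const_mul, eU, eF, eF', show avg P I = _ from avg_hit h1 _ _]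
  ring

/-- **The second moment.** Only pairs that are not apart contribute. -/
theorem avg_sq_le {ι : Type} {P : κ → ℝ} (h0 : ∀ x, 0 ≤ P x) (h1 : ∑ x, P x = 1)
    {S : Finset σ} {n₀ : σ} (h₀ : n₀ ∈ S) (Y : Finset ι) (t : ι → σ → Fin H) (c : ι → σ → κ)
    (t₀ : Fin H) (c₀ : κ) (ht : ∀ y ∈ Y, t y n₀ = t₀) (hc : ∀ y ∈ Y, c y n₀ = c₀)
    (bad : Finset (ι × ι))
    (hbad : ∀ y ∈ Y, ∀ y' ∈ Y, ¬ Apart S n₀ (t y) (t y') → (y, y') ∈ bad) :
    avg P (fun ω => (∑ y ∈ Y, dev P S n₀ (t y) (c y) ω) ^ 2) ≤ bad.card := by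
  classical
  have e : ∀ ω, (∑ y ∈ Y, dev P S n₀ (t y) (c y) ω) ^ 2 =
      ∑ q ∈ Y ×ˢ Y, dev P S n₀ (t q.1) (c q.1) ω * dev P S n₀ (t q.2) (c q.2) ω := fun ω => by
    rw [sq, sum_mul_sum, sum_product]
  simp only [e, avg_sum]
  refine (sum_le_sum (g := fun q => if q ∈ bad then (1 : ℝ) else 0) fun q hq => ?_).trans ?_
  · obtain ⟨hy, hy'⟩ := mem_product.1 hq
    split_ifs with hb
    · refine le_of_abs_le (abs_avg_le h0 h1 fun ω => ?_)
      rw [abs_mul]
      exact mul_le_one₀ (abs_dev_le h0 h1 _ _ _ _ ω) (abs_nonneg _) (abs_dev_le h0 h1 _ _ _ _ ω)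
    · refine le_of_eq (avg_dev_mul h1 h₀ ((ht _ hy').trans (ht _ hy).symm)
        ((hc _ hy').trans (hc _ hy).symm) ?_)
      by_contra hn
      exact hb (hbad _ hy _ hy' hn)
  · rw [← sum_filter, sum_const, nsmul_one]
    exact_mod_cast card_le_card fun q hq => (mem_filter.1 hq).2

omit [DecidableEq κ] in
/-- From a second moment to a first moment. -/
theorem avg_abs_le {P : κ → ℝ} (h0 : ∀ x, 0 ≤ P x) (h1 : ∑ x, P x = 1)
    (f : (Fin H → κ) → ℝ) : avg P (fun ω => |f ω|) ≤ √(avg P fun ω => f ω ^ 2) := by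
  refine Real.le_sqrt_of_sq_le ?_
  have hs := sum_mul_sq_le_sq_mul_sq univ (fun ω => √(wgt P ω))
    (fun ω : Fin H → κ => √(wgt P ω) * |f ω|)
  have e : ∀ ω : Fin H → κ, √(wgt P ω) * (√(wgt P ω) * |f ω|) = wgt P ω * |f ω| := fun ω => by
    rw [← mul_assoc, Real.mul_self_sqrt (wgt_nonneg h0 ω)]
  simp only [e, mul_pow, Real.sq_sqrt (wgt_nonneg h0 _), sq_abs] at hs
  have h := avg_one (H := H) h1
  simp only [avg, mul_one] at h
  rw [h, one_mul] at hs
  exact hs

end Vale.Agent.P110.Exist.Tiling
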