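import Vale.Agent.P110.Exist.Tiling.Count
import Vale.Agent.P110.Exist.Tiling.Moment

/-!
Few pairs of points of a common fibre share a tile.
-/

open Finset

namespace Vale.Agent.P110.Exist.Tiling

variable {D H : ℕ} [NeZero H]

instance instNeZeroTwoMul : NeZero (2 * H) := ⟨mul_ne_zero two_ne_zero (NeZero.ne H)⟩

/-- The free coordinate of a tile: `s` and `-1 - s` share one. -/
def fold (s : ZMod (2 * H)) : Fin H :=
  ⟨if s.val < H then s.val else 2 * H - 1 - s.val, by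
    have := ZMod.val_lt s
    split_ifs <;> omega⟩

lemma fold_eq_iff (s s' : ZMod (2 * H)) : fold s = fold s' ↔ s = s' ∨ s + s' + 1 = 0 := by
  have hH := NeZero.pos H
  have hs := ZMod.val_lt s
  have hs' := ZMod.val_lt s'
  have hsum : s + s' + 1 = 0 ↔ s.val + s'.val + 1 = 2 * H ∨ s.val + s'.val + 1 = 4 * H := by
    rw [show s + s' + 1 = ((s.val + s'.val + 1 : ℕ) : ZMod (2 * H)) by simp,
      ZMod.natCast_eq_zero_iff]
    constructor
    · rintro ⟨k, hk⟩
      have : k < 3 := by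
        by_contra hc
        have : 2 * H * 3 ≤ 2 * H * k := Nat.mul_le_mul_left _ (not_lt.1 hc)
        omega
      interval_cases k <;> omega
    · rintro (h | h) <;> rw [h]
      exact ⟨2, by ring⟩
  rw [hsum, ← (ZMod.val_injective (2 * H)).eq_iff]
  simp only [fold, Fin.ext_iff]
  split_ifs <;> omega

/-- The coordinate of the tile of `n` at the point `y`, with offset `q n`. -/
def tileAt (q : (Fin D → ℤ) → ℕ) (y : Fin D → ZMod (2 * H)) (n : Fin D → ℤ) : Fin H :=
  fold (dotZ n y + (q n : ZMod (2 * H)))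

/-- The points at which two given tiles share a coordinate. -/
lemma card_clash (q : (Fin D → ℤ) → ℕ) (n n' : Fin D → ℤ) {i k : Fin D}
    (hi : n i - n' i ≠ 0) (hk : n k + n' k ≠ 0) :
    #{y : Fin D → ZMod (2 * H) | tileAt q y n = tileAt q y n'} ≤
      ((n i - n' i).natAbs + (n k + n' k).natAbs) * (2 * H) ^ (D - 1) := by
  classical
  rw [Nat.add_mul]
  refine le_trans ((card_le_card fun y hy => ?_).trans (card_union_le
    {y : Fin D → ZMod (2 * H) | dotZ (n - n') y = (q n' : ZMod (2 * H)) - q n}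
    {y : Fin D → ZMod (2 * H) | dotZ (n + n') y = -1 - q n - q n'}))
    (Nat.add_le_add (card_one (w := n - n') hi _) (card_one (w := n + n') hk _))
  simp only [mem_filter, mem_univ, true_and, tileAt, fold_eq_iff] at hy
  have e1 : dotZ (n - n') y = dotZ n y - dotZ n' y := by
    simp [dotZ, sub_mul, sum_sub_distrib]
  have e2 : dotZ (n + n') y = dotZ n y + dotZ n' y := by
    simp [dotZ, add_mul, sum_add_distrib]
  simp only [mem_union, mem_filter, mem_univ, true_and, e1, e2]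
  rcases hy with h | h
  · exact Or.inl (by linear_combination h)
  · exact Or.inr (by linear_combination h)

/-- **Few coincidences.** The pairs on one fibre of `n₀` that are not apart. -/
theorem exists_coincide_le (hD : 2 ≤ D) (S : Finset (Fin D → ℤ))
    (hprim : ∀ n ∈ S, ∃ z : Fin D → ℤ, ∑ i, n i * z i = 1) (hneg : ∀ n ∈ S, -n ∉ S) :
    ∃ C : ℕ, ∀ (H : ℕ) [NeZero H] (q : (Fin D → ℤ) → ℕ), ∀ n₀ ∈ S,
      ∀ B : Finset ((Fin D → ZMod (2 * H)) × (Fin D → ZMod (2 * H))),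
        (∀ p ∈ B, dotZ n₀ p.1 = dotZ n₀ p.2 ∧ ¬ Apart S n₀ (tileAt q p.1) (tileAt q p.2)) →
        #B ≤ C * (2 * H) ^ (2 * D - 2) := by
  classical
  have hi : ∀ n n' : Fin D → ℤ, ∃ i k, n ∈ S → n' ∈ S → n ≠ n' →
      n i - n' i ≠ 0 ∧ n k + n' k ≠ 0 := by
    intro n n'
    by_cases h : n ∈ S ∧ n' ∈ S ∧ n ≠ n'
    · obtain ⟨hn, hn', hne⟩ := h
      obtain ⟨i, hi⟩ : ∃ i, n i - n' i ≠ 0 := by
        by_contra hc
        exact hne (funext fun i => sub_eq_zero.1 (not_not.1 fun h => hc ⟨i, h⟩))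
      obtain ⟨k, hk⟩ : ∃ k, n k + n' k ≠ 0 := by
        by_contra hc
        refine hneg n hn ?_
        convert hn' using 1
        funext i
        exact neg_eq_of_add_eq_zero_right (not_not.1 fun h => hc ⟨i, h⟩)
      exact ⟨i, k, fun _ _ _ => ⟨hi, hk⟩⟩
    · have i₀ : Fin D := ⟨0, by omega⟩
      exact ⟨i₀, i₀, fun a b c => absurd ⟨a, b, c⟩ h⟩
  choose fi fk hik using hi
  have hmin : ∀ n n' : Fin D → ℤ, ∃ i k, n ∈ S → n' ∈ S → n ≠ n' → n i * n' k - n k * n' i ≠ 0 := by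
    intro n n'
    by_cases h : n ∈ S ∧ n' ∈ S ∧ n ≠ n'
    · obtain ⟨hn, hn', hne⟩ := h
      obtain ⟨z, hz⟩ := hprim n hn
      obtain ⟨z', hz'⟩ := hprim n' hn'
      obtain ⟨i, k, hk⟩ := exists_minor hz hz' (Ne.symm hne) fun e => hneg n hn (e ▸ hn')
      exact ⟨i, k, fun _ _ _ => hk⟩
    · have i₀ : Fin D := ⟨0, by omega⟩
      exact ⟨i₀, i₀, fun a b c => absurd ⟨a, b, c⟩ h⟩
  choose gi gk hg using hmin
  set cl : (Fin D → ℤ) → (Fin D → ℤ) → ℕ := fun n n' =>
    (n (fi n n') - n' (fi n n')).natAbs + (n (fk n n') + n' (fk n n')).natAbs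
  set mn : (Fin D → ℤ) → (Fin D → ℤ) → ℕ := fun n₀ n =>
    (n₀ (gi n₀ n) * n (gk n₀ n) - n₀ (gk n₀ n) * n (gi n₀ n)).natAbs ^ 2
  refine ⟨2 * (∑ u ∈ S ×ˢ S, cl u.1 u.2) + 2 * (∑ m ∈ S, #S * ∑ u ∈ S, mn m u),
    fun H _ q n₀ hn₀ B hB => ?_⟩
  obtain ⟨z, hz⟩ := hprim n₀ hn₀
  have hfib : ∀ a : ZMod (2 * H), #{y : Fin D → ZMod (2 * H) | dotZ n₀ y = a} = (2 * H) ^ (D - 1) := fun a => by
    have := card_fibre hz a
    rw [show (2 * H) ^ D = (2 * H) ^ (D - 1) * (2 * H) by rw [← pow_succ]; congr 1; omega] at this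
    exact Nat.eq_of_mul_eq_mul_right (NeZero.pos (2 * H)) this
  -- the points with two tiles on one coordinate
  set bad : Finset (Fin D → ZMod (2 * H)) := {y | ¬ Set.InjOn (tileAt q y) S}
  have hbad : bad.card ≤ (∑ u ∈ S ×ˢ S, cl u.1 u.2) * (2 * H) ^ (D - 1) := by
    rw [sum_mul]
    refine (card_le_card (t := ((S ×ˢ S).filter fun u => u.1 ≠ u.2).biUnion fun u =>
      {y : Fin D → ZMod (2 * H) | tileAt q y u.1 = tileAt q y u.2}) fun y hy => ?_).trans
      (card_biUnion_le.trans ((sum_le_sum fun u hu => ?_).trans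
        (sum_le_sum_of_subset (filter_subset _ _))))
    · simp only [bad, Set.InjOn, mem_filter, mem_univ, true_and, mem_coe, not_forall] at hy
      obtain ⟨a, ha, b, hb, e, hne⟩ := hy
      exact mem_biUnion.2 ⟨(a, b), mem_filter.2 ⟨mem_product.2 ⟨ha, hb⟩, hne⟩,
        mem_filter.2 ⟨mem_univ _, e⟩⟩
    · obtain ⟨hu1, hne⟩ := mem_filter.1 hu
      obtain ⟨ha, hb⟩ := mem_product.1 hu1
      obtain ⟨h1, h2⟩ := hik _ _ ha hb hne
      exact card_clash q u.1 u.2 h1 h2
  -- the pairs of two kinds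
  set P1 : Finset ((Fin D → ZMod (2 * H)) × (Fin D → ZMod (2 * H))) :=
    bad.biUnion fun y => ({y' : Fin D → ZMod (2 * H) | dotZ n₀ y' = dotZ n₀ y} : Finset _).biUnion
      fun y' => {(y, y'), (y', y)}
  set P2 : Finset ((Fin D → ZMod (2 * H)) × (Fin D → ZMod (2 * H))) :=
    univ.biUnion fun y => ((S.erase n₀) ×ˢ (S.erase n₀)).biUnion fun u =>
      (({y' : Fin D → ZMod (2 * H) | dotZ n₀ y' = dotZ n₀ y ∧
          tileAt q y' u.2 = tileAt q y u.1} : Finset _)).image fun y' => (y, y')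
  have hsub : B ⊆ P1 ∪ P2 := by
    intro p hp
    obtain ⟨he, hn⟩ := hB p hp
    simp only [Apart, not_and_or] at hn
    rcases hn with h | h | h
    · exact mem_union_left _ (mem_biUnion.2 ⟨p.1, by simp [bad, h], mem_biUnion.2
        ⟨p.2, by simp [he.symm], by simp⟩⟩)
    · exact mem_union_left _ (mem_biUnion.2 ⟨p.2, by simp [bad, h], mem_biUnion.2
        ⟨p.1, by simp [he], by simp⟩⟩)
    · push Not at h
      obtain ⟨a, ha, b, hb, e⟩ := h
      exact mem_union_right _ (mem_biUnion.2 ⟨p.1, mem_univ _, mem_biUnion.2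
        ⟨(a, b), mem_product.2 ⟨ha, hb⟩, mem_image.2
          ⟨p.2, mem_filter.2 ⟨mem_univ _, he.symm, e.symm⟩, rfl⟩⟩⟩)
  have hP1 : #P1 ≤ 2 * (∑ u ∈ S ×ˢ S, cl u.1 u.2) * (2 * H) ^ (2 * D - 2) := by
    refine card_biUnion_le.trans ((sum_le_sum fun y _ => card_biUnion_le.trans
      (sum_le_sum fun y' _ => card_le_two)).trans ?_)
    simp only [sum_const, smul_eq_mul, hfib]
    refine (Nat.mul_le_mul_right _ hbad).trans (le_of_eq ?_)
    rw [show 2 * D - 2 = (D - 1) + (D - 1) by omega, pow_add]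
    ring
  have hP2 : #P2 ≤ 2 * (#S * ∑ u ∈ S, mn n₀ u) * (2 * H) ^ (2 * D - 2) := by
    have hone : ∀ (y : Fin D → ZMod (2 * H)), ∀ u ∈ (S.erase n₀) ×ˢ (S.erase n₀),
        #(({y' : Fin D → ZMod (2 * H) | dotZ n₀ y' = dotZ n₀ y ∧
          tileAt q y' u.2 = tileAt q y u.1} : Finset _)) ≤ 2 * mn n₀ u.2 * (2 * H) ^ (D - 2) := by
      intro y u hu
      obtain ⟨hne, hu2⟩ := mem_erase.1 (mem_product.1 hu).2
      have hΔ := hg n₀ u.2 hn₀ hu2 (Ne.symm hne)
      rw [show 2 * mn n₀ u.2 = mn n₀ u.2 + mn n₀ u.2 from two_mul _, Nat.add_mul]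
      set s := dotZ u.1 y + (q u.1 : ZMod (2 * H))
      refine ((card_le_card fun y' hy' => ?_).trans (card_union_le
        {y' : Fin D → ZMod (2 * H) | dotZ n₀ y' = dotZ n₀ y ∧ dotZ u.2 y' = s - q u.2}
        {y' : Fin D → ZMod (2 * H) | dotZ n₀ y' = dotZ n₀ y ∧ dotZ u.2 y' = -1 - s - q u.2})).trans
        (Nat.add_le_add (card_two hΔ _ _) (card_two hΔ _ _))
      simp only [mem_filter, mem_univ, true_and, tileAt, fold_eq_iff] at hy'
      obtain ⟨h1, h2⟩ := hy'
      simp only [mem_union, mem_filter, mem_univ, true_and, h1, s]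
      rcases h2 with h | h
      · exact Or.inl (by linear_combination h)
      · exact Or.inr (by linear_combination h)
    refine card_biUnion_le.trans ((sum_le_sum fun y _ => card_biUnion_le.trans
      (sum_le_sum fun u hu => card_image_le.trans (hone y u hu))).trans ?_)
    simp only [sum_const, smul_eq_mul, card_univ, Fintype.card_pi, prod_const, Fintype.card_fin,
      ZMod.card, ← sum_mul]
    rw [sum_product]
    simp only [sum_const, smul_eq_mul, ← mul_sum]
    rw [show 2 * D - 2 = D + (D - 2) by omega, pow_add]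
    calc (2 * H) ^ D * (#(S.erase n₀) * (2 * ∑ u ∈ S.erase n₀, mn n₀ u) * (2 * H) ^ (D - 2))
        ≤ (2 * H) ^ D * (#S * (2 * ∑ u ∈ S, mn n₀ u) * (2 * H) ^ (D - 2)) := by
          gcongr <;> exact erase_subset _ _
      _ = _ := by ring
  refine (card_le_card hsub).trans ((card_union_le _ _).trans ((Nat.add_le_add hP1 hP2).trans ?_))
  rw [Nat.add_mul (2 * _)]
  refine Nat.add_le_add_left (Nat.mul_le_mul_right _ (Nat.mul_le_mul_left _ ?_)) _
  exact single_le_sum (f := fun m => #S * ∑ u ∈ S, mn m u) (fun _ _ => Nat.zero_le _) hn₀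

end Vale.Agent.P110.Exist.Tiling
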