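import Mathlib

/-!
Numbers of solutions of linear equations in `(ZMod M) ^ D`.
-/

open Finset

namespace Vale.Agent.P110.Exist.Tiling

variable {D M : ℕ} [NeZero M]

/-- The form `y ↦ n·y` modulo `M`. -/
def dotZ (n : Fin D → ℤ) (y : Fin D → ZMod M) : ZMod M := ∑ i, (n i : ZMod M) * y i

omit [NeZero M] in
lemma dotZ_add (n : Fin D → ℤ) (y z : Fin D → ZMod M) :
    dotZ n (y + z) = dotZ n y + dotZ n z := by
  simp [dotZ, mul_add, sum_add_distrib]

omit [NeZero M] in
lemma dotZ_sub (n : Fin D → ℤ) (y z : Fin D → ZMod M) :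
    dotZ n (y - z) = dotZ n y - dotZ n z := by
  simp [dotZ, mul_sub, sum_sub_distrib]

omit [NeZero M] in
lemma dotZ_smul (n : Fin D → ℤ) (a : ZMod M) (z : Fin D → ℤ) :
    dotZ n (fun i => a * (z i : ZMod M)) = a * ((∑ i, n i * z i : ℤ) : ZMod M) := by
  simp only [dotZ, Int.cast_sum, Int.cast_mul, mul_sum]
  exact sum_congr rfl fun i _ => by ring

omit [NeZero M] in
lemma dotZ_cast (n y : Fin D → ℤ) :
    dotZ n (fun i => (y i : ZMod M)) = ((∑ i, n i * y i : ℤ) : ZMod M) := by
  simp [dotZ]

/-- A primitive form takes every value equally often. -/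
theorem card_fibre {n z : Fin D → ℤ} (hz : ∑ i, n i * z i = 1) (c : ZMod M) :
    #{y : Fin D → ZMod M | dotZ n y = c} * M = M ^ D := by
  classical
  have hall : ∀ a : ZMod M, #{y : Fin D → ZMod M | dotZ n y = a} =
      #{y : Fin D → ZMod M | dotZ n y = c} := fun a => by
    set u : Fin D → ZMod M := fun i => (c - a) * (z i : ZMod M)
    have hu : dotZ n u = c - a := by simp [u, dotZ_smul, hz]
    refine card_equiv (Equiv.addRight u) fun y => ?_
    simp only [mem_filter, mem_univ, true_and, Equiv.coe_addRight, dotZ_add, hu]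
    constructor
    · rintro rfl; abel
    · intro h; linear_combination h
  have e := card_eq_sum_card_fiberwise (s := (univ : Finset (Fin D → ZMod M)))
    (t := (univ : Finset (ZMod M))) (f := dotZ n) fun _ _ => mem_coe.2 (mem_univ _)
  simp only [hall, sum_const, smul_eq_mul, card_univ, ZMod.card, Fintype.card_pi, prod_const,
    Fintype.card_fin] at e
  rw [mul_comm]
  exact e.symm

/-- A nonzero factor has few zeros modulo `M`. -/
theorem card_mul_eq_zero {Δ : ℤ} (hΔ : Δ ≠ 0) :
    #{x : ZMod M | (Δ : ZMod M) * x = 0} ≤ Δ.natAbs := by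
  have hM : 0 < M := NeZero.pos M
  have key : ∀ x : ZMod M, (Δ : ZMod M) * x = 0 → M ∣ Δ.natAbs * x.val := fun x hx => by
    have : ((Δ * (x.val : ℤ) : ℤ) : ZMod M) = 0 := by simpa using hx
    have h := Int.natCast_dvd.1 ((ZMod.intCast_zmod_eq_zero_iff_dvd _ M).1 this)
    rwa [Int.natAbs_mul, Int.natAbs_natCast] at h
  rw [← card_range Δ.natAbs]
  refine card_le_card_of_injOn (fun x => Δ.natAbs * x.val / M) (fun x hx => ?_) ?_
  · simp only [coe_filter, mem_univ, true_and, Set.mem_ofPred_eq] at hx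
    simp only [coe_range, Set.mem_Iio]
    exact (Nat.div_lt_iff_lt_mul hM).2
      (Nat.mul_lt_mul_of_pos_left (ZMod.val_lt x) (Int.natAbs_pos.2 hΔ))
  · intro x hx y hy h
    simp only [coe_filter, mem_univ, true_and, Set.mem_ofPred_eq] at hx hy
    have e : Δ.natAbs * x.val = Δ.natAbs * y.val := by
      rw [← Nat.div_mul_cancel (key x hx), ← Nat.div_mul_cancel (key y hy)]
      exact congrArg (· * M) h
    exact ZMod.val_injective M (Nat.eq_of_mul_eq_mul_left (Int.natAbs_pos.2 hΔ) e)

/-- A set whose points differ on few coordinates in few ways is small. -/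
theorem card_le_off (T : Finset (Fin D)) (E : Finset (Fin D → ZMod M)) (B : ℕ)
    (W : Finset ({i // i ∈ T} → ZMod M)) (hW : #W ≤ B)
    (h : ∀ y ∈ E, ∀ y' ∈ E, (∀ i, i ∉ T → y i = y' i) → (fun i : {i // i ∈ T} => y i - y' i) ∈ W) :
    #E ≤ B * M ^ (D - #T) := by
  classical
  set π : (Fin D → ZMod M) → {i // i ∉ T} → ZMod M := fun y i => y i
  have hI : #(E.image π) ≤ M ^ (D - #T) := by
    refine (card_le_univ _).trans_eq ?_
    simp [Fintype.card_pi, Fintype.card_subtype_compl]
  refine le_trans (card_le_mul_card_image E B fun a ha => ?_) (Nat.mul_le_mul_left B hI)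
  obtain ⟨y₀, hy₀, rfl⟩ := mem_image.1 ha
  refine (card_le_card_of_injOn (fun y i => y i.1 - y₀ i.1) (fun y hy => ?_) ?_).trans hW
  · obtain ⟨hyE, hy2⟩ := mem_filter.1 (mem_coe.1 hy)
    exact mem_coe.2 (h y hyE y₀ hy₀ fun i hi => congrFun hy2 ⟨i, hi⟩)
  · intro y hy y' hy' e
    obtain ⟨_, h1⟩ := mem_filter.1 (mem_coe.1 hy)
    obtain ⟨_, h2⟩ := mem_filter.1 (mem_coe.1 hy')
    funext i
    by_cases hi : i ∈ T
    · exact sub_left_inj.1 (congrFun e ⟨i, hi⟩)
    · exact (congrFun h1 ⟨i, hi⟩).trans (congrFun h2 ⟨i, hi⟩).symm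

/-- One equation: at most `|w i| M ^ (D - 1)` solutions. -/
theorem card_one {w : Fin D → ℤ} {i : Fin D} (hi : w i ≠ 0) (c : ZMod M) :
    #{y : Fin D → ZMod M | dotZ w y = c} ≤ (w i).natAbs * M ^ (D - 1) := by
  classical
  rw [← card_singleton i]
  refine card_le_off {i} _ _ {x | (w i : ZMod M) * x ⟨i, mem_singleton_self i⟩ = 0} ?_ ?_
  · refine le_trans (card_le_card_of_injOn (fun x => x ⟨i, mem_singleton_self i⟩) (fun x hx => ?_)
      fun x _ x' _ e => ?_) (card_mul_eq_zero hi)
    · simpa using hx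
    · funext j
      obtain rfl : j = ⟨i, mem_singleton_self i⟩ := Subtype.ext (mem_singleton.1 j.2)
      exact e
  · intro y hy y' hy' hoff
    simp only [mem_filter, mem_univ, true_and] at hy hy' ⊢
    have e : dotZ w (y - y') = 0 := by rw [dotZ_sub, hy, hy', sub_self]
    rw [dotZ, Fintype.sum_eq_single i (fun j hj => by simp [hoff j (by simpa using hj)])] at e
    simpa using e

/-- Two independent equations: at most `Δ ^ 2 M ^ (D - 2)` solutions. -/
theorem card_two {n w : Fin D → ℤ} {i k : Fin D} (hΔ : n i * w k - n k * w i ≠ 0)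
    (c c' : ZMod M) :
    #{y : Fin D → ZMod M | dotZ n y = c ∧ dotZ w y = c'} ≤
      (n i * w k - n k * w i).natAbs ^ 2 * M ^ (D - 2) := by
  classical
  have hik : i ≠ k := fun h => hΔ (by subst h; ring)
  set Δ := n i * w k - n k * w i
  set W0 : Finset (ZMod M) := {x | (Δ : ZMod M) * x = 0}
  refine le_of_le_of_eq (card_le_off {i, k} _ (Δ.natAbs ^ 2) {x | ∀ j, x j ∈ W0} ?_ ?_)
    (by rw [card_pair hik])
  · refine le_trans (card_le_card_of_injOn
      (fun x => (x ⟨i, mem_insert_self _ _⟩, x ⟨k, mem_insert_of_mem (mem_singleton_self k)⟩))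
      (t := W0 ×ˢ W0) (fun x hx => ?_) fun x _ x' _ e => ?_) ?_
    · simp only [coe_filter, mem_univ, true_and, Set.mem_ofPred_eq] at hx
      exact mem_coe.2 (mem_product.2 ⟨hx _, hx _⟩)
    · funext j
      rcases mem_insert.1 j.2 with h | h
      · rw [show j = ⟨i, mem_insert_self _ _⟩ from Subtype.ext h]
        exact congrArg Prod.fst e
      · rw [show j = ⟨k, mem_insert_of_mem (mem_singleton_self k)⟩ from
          Subtype.ext (mem_singleton.1 h)]
        exact congrArg Prod.snd e
    · rw [card_product, sq]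
      exact Nat.mul_le_mul (card_mul_eq_zero hΔ) (card_mul_eq_zero hΔ)
  · intro y hy y' hy' hoff
    simp only [mem_filter, mem_univ, true_and] at hy hy'
    have hsum : ∀ v : Fin D → ℤ, dotZ v (y - y') =
        (v i : ZMod M) * (y i - y' i) + (v k : ZMod M) * (y k - y' k) := fun v => by
      rw [dotZ, ← sum_subset (subset_univ ({i, k} : Finset (Fin D)))
        (fun j _ hj => by simp [hoff j hj]), sum_pair hik]
      rfl
    have e1 : dotZ n (y - y') = 0 := by rw [dotZ_sub, hy.1, hy'.1, sub_self]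
    have e2 : dotZ w (y - y') = 0 := by rw [dotZ_sub, hy.2, hy'.2, sub_self]
    rw [hsum] at e1 e2
    simp only [mem_filter, mem_univ, true_and, W0]
    intro j
    rcases mem_insert.1 j.2 with h | h
    · rw [h]; simp only [Δ]; push_cast
      linear_combination (w k : ZMod M) * e1 - (n k : ZMod M) * e2
    · rw [mem_singleton.1 h]; simp only [Δ]; push_cast
      linear_combination (n i : ZMod M) * e2 - (w i : ZMod M) * e1

omit [NeZero M] in
/-- Two primitive vectors that are not opposite or equal have a nonzero minor. -/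
theorem exists_minor {n w z z' : Fin D → ℤ} (hz : ∑ i, n i * z i = 1)
    (hz' : ∑ i, w i * z' i = 1) (h1 : w ≠ n) (h2 : w ≠ -n) :
    ∃ i k, n i * w k - n k * w i ≠ 0 := by
  by_contra hc
  have h0 : ∀ i k, n i * w k = n k * w i := fun i k => by
    by_contra h
    exact hc ⟨i, k, sub_ne_zero.2 h⟩
  set l := ∑ i, w i * z i
  have hl : ∀ k, w k = l * n k := fun k => by
    calc w k = ∑ i, z i * (n i * w k) := by
          calc w k = w k * ∑ i, n i * z i := by rw [hz, mul_one]
            _ = _ := by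
              rw [mul_sum]
              exact sum_congr rfl fun i _ => by ring
      _ = l * n k := by
          rw [sum_mul]
          exact sum_congr rfl fun i _ => by rw [h0 i k]; ring
  have hu : l * ∑ i, n i * z' i = 1 := by
    rw [mul_sum, ← hz']
    exact sum_congr rfl fun i _ => by rw [hl i]; ring
  rcases Int.eq_one_or_neg_one_of_mul_eq_one hu with h | h
  · exact h1 (funext fun k => by simp [hl k, h])
  · exact h2 (funext fun k => by simp [hl k, h])

end Vale.Agent.P110.Exist.Tiling
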