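import Mathlib

/-!
Averages over independent colours with given weights.
-/

open Finset

namespace Vale.Agent.P110.Exist.Tiling

variable {H : ℕ} {κ : Type} [Fintype κ]

/-- The weight of a colouring. -/
def wgt (P : κ → ℝ) (ω : Fin H → κ) : ℝ := ∏ i, P (ω i)

/-- The average over colourings. -/
def avg (P : κ → ℝ) (f : (Fin H → κ) → ℝ) : ℝ := ∑ ω, wgt P ω * f ω

omit [Fintype κ] in
lemma wgt_nonneg {P : κ → ℝ} (h0 : ∀ c, 0 ≤ P c) (ω : Fin H → κ) : 0 ≤ wgt P ω :=
  prod_nonneg fun _ _ => h0 _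

/-- A product over distinct coordinates averages to the product of the averages. -/
theorem avg_prod {P : κ → ℝ} (h1 : ∑ c, P c = 1) (T : Finset (Fin H)) (g : Fin H → κ → ℝ) :
    avg P (fun ω => ∏ i ∈ T, g i (ω i)) = ∏ i ∈ T, ∑ c, P c * g i c := by
  classical
  have e : ∀ ω : Fin H → κ, wgt P ω * ∏ i ∈ T, g i (ω i) =
      ∏ i, P (ω i) * if i ∈ T then g i (ω i) else 1 := fun ω => by
    rw [prod_mul_distrib, prod_ite_mem, univ_inter, wgt]
  simp only [avg, e]
  rw [← Fintype.prod_sum (fun i c => P c * if i ∈ T then g i c else 1)]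
  rw [← prod_subset (subset_univ T) (fun i _ hi => by simp [hi, h1])]
  exact prod_congr rfl fun i hi => by simp [hi]

/-- The same along an injective family of coordinates. -/
theorem avg_prod_map {σ : Type} {P : κ → ℝ} (h1 : ∑ c, P c = 1) (T : Finset σ) (t : σ → Fin H)
    (ht : Set.InjOn t T) (g : σ → κ → ℝ) :
    avg P (fun ω => ∏ n ∈ T, g n (ω (t n))) = ∏ n ∈ T, ∑ c, P c * g n c := by
  classical
  rcases T.eq_empty_or_nonempty with rfl | ⟨n₀, _⟩
  · simpa using avg_prod h1 (∅ : Finset (Fin H)) fun _ _ => 1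
  have : Nonempty σ := ⟨n₀⟩
  set g' : Fin H → κ → ℝ := fun i => g (Function.invFunOn t T i)
  have hinv : ∀ n ∈ T, Function.invFunOn t T (t n) = n := fun n hn => ht.leftInvOn_invFunOn hn
  have e := avg_prod h1 (T.image t) g'
  rw [prod_image ht] at e
  refine Eq.trans (congrArg (avg P) (funext fun ω => ?_)) (e.trans (prod_congr rfl fun n hn => ?_))
  · rw [prod_image ht]
    exact prod_congr rfl fun n hn => by simp [g', hinv n hn]
  · simp [g', hinv n hn]

lemma avg_one {P : κ → ℝ} (h1 : ∑ c, P c = 1) : avg P (fun _ : Fin H → κ => (1 : ℝ)) = 1 := by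
  simpa using avg_prod h1 (∅ : Finset (Fin H)) fun _ _ => 1

lemma avg_add (P : κ → ℝ) (f g : (Fin H → κ) → ℝ) :
    avg P (fun ω => f ω + g ω) = avg P f + avg P g := by
  simp [avg, mul_add, sum_add_distrib]

lemma avg_sum {ι : Type} (P : κ → ℝ) (s : Finset ι) (f : ι → (Fin H → κ) → ℝ) :
    avg P (fun ω => ∑ i ∈ s, f i ω) = ∑ i ∈ s, avg P (f i) := by
  simp only [avg, mul_sum]
  exact sum_comm

lemma avg_const_mul (P : κ → ℝ) (a : ℝ) (f : (Fin H → κ) → ℝ) :
    avg P (fun ω => a * f ω) = a * avg P f := by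
  simp only [avg, mul_sum]
  exact sum_congr rfl fun ω _ => by ring

lemma avg_mono {P : κ → ℝ} (h0 : ∀ c, 0 ≤ P c) {f g : (Fin H → κ) → ℝ} (h : ∀ ω, f ω ≤ g ω) :
    avg P f ≤ avg P g :=
  sum_le_sum fun ω _ => mul_le_mul_of_nonneg_left (h ω) (wgt_nonneg h0 ω)

lemma abs_avg_le {P : κ → ℝ} (h0 : ∀ c, 0 ≤ P c) (h1 : ∑ c, P c = 1) {f : (Fin H → κ) → ℝ}
    {B : ℝ} (h : ∀ ω, |f ω| ≤ B) : |avg P f| ≤ B := by
  have hB : avg P (fun _ : Fin H → κ => B) = B := by
    simpa [avg_one h1] using avg_const_mul (H := H) P B fun _ => 1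
  refine (abs_sum_le_sum_abs _ _).trans (le_trans (sum_le_sum fun ω _ => ?_) hB.le)
  rw [abs_mul, abs_of_nonneg (wgt_nonneg h0 ω)]
  exact mul_le_mul_of_nonneg_left (h ω) (wgt_nonneg h0 ω)

/-- Some colouring is no worse than the average. -/
theorem exists_le_avg {P : κ → ℝ} (h0 : ∀ c, 0 ≤ P c) (h1 : ∑ c, P c = 1)
    (f : (Fin H → κ) → ℝ) : ∃ ω, f ω ≤ avg P f := by
  by_contra hc
  have hlt : ∀ ω, avg P f < f ω := fun ω => not_le.1 fun h => hc ⟨ω, h⟩
  have h2 : avg P (fun _ : Fin H → κ => avg P f) = avg P f := by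
    simpa [avg_one h1] using avg_const_mul (H := H) P (avg P f) fun _ => 1
  obtain ⟨ω, hω⟩ : ∃ ω : Fin H → κ, 0 < wgt P ω := by
    by_contra hn
    have : avg P (fun _ : Fin H → κ => (1 : ℝ)) ≤ 0 := sum_nonpos fun ω _ => by
      rw [mul_one]; exact not_lt.1 fun h => hn ⟨ω, h⟩
    linarith [avg_one (H := H) h1]
  have : avg P (fun _ : Fin H → κ => avg P f) < avg P f :=
    sum_lt_sum (fun u _ => mul_le_mul_of_nonneg_left (hlt u).le (wgt_nonneg h0 u))
      ⟨ω, mem_univ _, mul_lt_mul_of_pos_left (hlt ω) hω⟩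
  linarith

end Vale.Agent.P110.Exist.Tiling
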