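import Vale.Agent.P110.Exist.Spec
import Vale.Agent.P110.Exist.Tiling.Choice

/-!
The residues occupied by the forward tiles.
-/

open Finset

namespace Vale.Agent.P110.Exist.Tiling

variable {D : ℕ} {S : Finset (Fin D → ℤ)}

/-- The first residue of slot `l` of tile `s`, for slots of length `m` in tiles of length `Lm`. -/
def addr {H : ℕ} (Lm m : ℕ) (a : ZMod (2 * H) × ℕ) : ℕ := a.1.val * Lm + a.2 * m

/-- The slots of the forward tiles of `n`. -/
noncomputable def slots (hS : S.Nonempty) {H : ℕ} [NeZero H] (ω : Fin H → Col S) (L : ℕ)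
    (n : Fin D → ℤ) : Finset (ZMod (2 * H) × ℕ) :=
  (univ.filter fun s : ZMod (2 * H) => ω (fold s) = col hS n s) ×ˢ range L

lemma mem_slots {hS : S.Nonempty} {H : ℕ} [NeZero H] {ω : Fin H → Col S} {L : ℕ}
    {n : Fin D → ℤ} {a : ZMod (2 * H) × ℕ} :
    a ∈ slots hS ω L n ↔ ω (fold a.1) = col hS n a.1 ∧ a.2 < L := by
  simp [slots]

/-- A point of the lattice with its slot of `n`. -/
lemma dot_emod {H Lm m L : ℕ} [NeZero H] (hL : L * m = Lm) (hm : 0 < m) (hL0 : 0 < L)
    (n v : Fin D → ℤ) (hv : dot n v = (m : ℤ)) (y : Fin D → ZMod (2 * H)) (j : ℕ)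
    (s : ZMod (2 * H)) (hs : s = dotZ n y + ((j / L : ℕ) : ZMod (2 * H))) :
    dot n (fun i => (Lm : ℤ) * ((y i).val : ℤ) + (j : ℤ) * v i) % ((2 * H * Lm : ℕ) : ℤ) =
      (addr Lm m (s, j % L) : ℕ) := by
  have h0 : addr Lm m (s, j % L) < 2 * H * Lm := by
    have h1 : j % L * m < Lm := hL ▸ Nat.mul_lt_mul_of_pos_right (Nat.mod_lt _ hL0) hm
    have h2 : (s.val + 1) * Lm ≤ 2 * H * Lm := Nat.mul_le_mul_right _ (ZMod.val_lt s)
    simp only [addr]
    rw [Nat.add_mul, one_mul] at h2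
    omega
  obtain ⟨Q, hQ⟩ : ∃ Q, Q = j / L := ⟨_, rfl⟩
  obtain ⟨Rm, hRm⟩ : ∃ Rm, Rm = j % L := ⟨_, rfl⟩
  rw [← hRm] at h0 ⊢
  rw [← hQ] at hs
  obtain ⟨k, hk⟩ : ((2 * H : ℕ) : ℤ) ∣
      ∑ i, n i * ((y i).val : ℤ) + (Q : ℤ) - (s.val : ℤ) := by
    rw [← ZMod.intCast_zmod_eq_zero_iff_dvd]
    rw [Int.cast_sub, Int.cast_add, ← dotZ_cast n fun i => ((y i).val : ℤ)]
    simp [hs]
  have e : dot n (fun i => (Lm : ℤ) * ((y i).val : ℤ) + (j : ℤ) * v i) =
      (addr Lm m (s, Rm) : ℕ) + ((2 * H * Lm : ℕ) : ℤ) * k := by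
    have hj : (L : ℤ) * (Q : ℤ) + (Rm : ℤ) = j := by
      rw [hQ, hRm]; exact_mod_cast Nat.div_add_mod j L
    have hd : dot n (fun i => (Lm : ℤ) * ((y i).val : ℤ) + (j : ℤ) * v i) =
        (Lm : ℤ) * ∑ i, n i * ((y i).val : ℤ) + (j : ℤ) * m := by
      rw [← hv]
      simp only [dot, mul_add, sum_add_distrib, mul_sum]
      congr 1 <;> exact sum_congr rfl fun i _ => by ring
    have hLm : (L : ℤ) * m = Lm := by exact_mod_cast hL
    simp only [addr]
    push_cast at hk hj ⊢
    rw [hd]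
    linear_combination (Lm : ℤ) * hk - (m : ℤ) * hj + (Q : ℤ) * hLm
  rw [e, Int.add_mul_emod_self_left]
  exact Int.emod_eq_of_lt (Int.natCast_nonneg _) (by exact_mod_cast h0)

/-- The slot of an address. -/
lemma addr_inj {H Lm m L : ℕ} [NeZero H] (hL : L * m = Lm) (hm : 0 < m)
    {a b : ZMod (2 * H) × ℕ} (ha : a.2 < L) (hb : b.2 < L)
    (h : addr Lm m a = addr Lm m b) : a = b := by
  have h1 : a.2 * m < Lm := hL ▸ Nat.mul_lt_mul_of_pos_right ha hm
  have h2 : b.2 * m < Lm := hL ▸ Nat.mul_lt_mul_of_pos_right hb hm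
  simp only [addr] at h
  have hv : a.1.val = b.1.val := by
    rcases Nat.lt_trichotomy a.1.val b.1.val with c | c | c
    · have := Nat.mul_le_mul_right Lm c
      rw [Nat.succ_mul] at this
      omega
    · exact c
    · have := Nat.mul_le_mul_right Lm c
      rw [Nat.succ_mul] at this
      omega
  rw [hv] at h
  exact Prod.ext (ZMod.val_injective _ hv)
    (Nat.eq_of_mul_eq_mul_right hm (Nat.add_left_cancel h))

/-- The pieces of two slots are disjoint, and no residue meets the mirror of another. -/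
lemma addr_disjoint {hS : S.Nonempty} {H : ℕ} [NeZero H] {ω : Fin H → Col S} {Lm : ℕ}
    {L m : (Fin D → ℤ) → ℕ} (hL : ∀ n ∈ S, L n * m n = Lm) {n n' : Fin D → ℤ} (hn : n ∈ S)
    (hn' : n' ∈ S) {a a' : ZMod (2 * H) × ℕ} (ha : a ∈ slots hS ω (L n) n)
    (ha' : a' ∈ slots hS ω (L n') n') {l l' : ℕ} (hl : l < m n) (hl' : l' < m n') :
    (addr Lm (m n) a + l = addr Lm (m n') a' + l' → n = n' ∧ a = a') ∧
      addr Lm (m n) a + l + (addr Lm (m n') a' + l') + 1 ≠ 2 * H * Lm := by
  obtain ⟨hc, ha2⟩ := mem_slots.1 ha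
  obtain ⟨hc', ha2'⟩ := mem_slots.1 ha'
  have h1 : a.2 * m n + l < Lm := by
    rw [← hL n hn]
    calc a.2 * m n + l < (a.2 + 1) * m n := by rw [Nat.add_mul, one_mul]; omega
      _ ≤ L n * m n := Nat.mul_le_mul_right _ ha2
  have h2 : a'.2 * m n' + l' < Lm := by
    rw [← hL n' hn']
    calc a'.2 * m n' + l' < (a'.2 + 1) * m n' := by rw [Nat.add_mul, one_mul]; omega
      _ ≤ L n' * m n' := Nat.mul_le_mul_right _ ha2'
  constructor
  · intro h
    simp only [addr] at h
    have hv : a.1.val = a'.1.val := by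
      rcases Nat.lt_trichotomy a.1.val a'.1.val with c | c | c
      · have := Nat.mul_le_mul_right Lm c
        rw [Nat.succ_mul] at this
        omega
      · exact c
      · have := Nat.mul_le_mul_right Lm c
        rw [Nat.succ_mul] at this
        omega
    have hs : a.1 = a'.1 := ZMod.val_injective _ hv
    rw [← hs] at hc'
    have hnn : n = n' := by
      simpa [col, hn, hn'] using congrArg (fun x : Col S => x.1.1) (hc.symm.trans hc')
    subst hnn
    rw [hv] at h
    refine ⟨rfl, Prod.ext hs ?_⟩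
    have e : a.2 * m n + l = a'.2 * m n + l' := by omega
    have e2 := congrArg (· / m n) e
    simpa [Nat.add_div_of_dvd_right (dvd_mul_left (m n) _), Nat.div_eq_of_lt hl,
      Nat.div_eq_of_lt hl', Nat.mul_div_cancel _ (show 0 < m n by omega)] using e2
  · intro h
    simp only [addr] at h
    have hsum : a.1.val + a'.1.val + 1 = 2 * H := by
      rcases Nat.lt_trichotomy (a.1.val + a'.1.val + 1) (2 * H) with c | c | c
      · have := Nat.mul_le_mul_right Lm c
        simp only [Nat.succ_mul, Nat.add_mul, one_mul, Nat.mul_assoc 2 H Lm] at this h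
        omega
      · exact c
      · have := Nat.mul_le_mul_right Lm c
        simp only [Nat.succ_mul, Nat.add_mul, one_mul, Nat.mul_assoc 2 H Lm] at this h
        omega
    have hf : fold a.1 = fold a'.1 := by
      ext
      simp only [fold]
      split_ifs <;> omega
    have hside := congrArg Prod.snd (hc.symm.trans ((congrArg ω hf).trans hc'))
    simp only [col, decide_eq_decide] at hside
    have hH := NeZero.pos H
    by_cases c : a.1.val < H
    · have := hside.1 c
      omega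
    · have : ¬ a'.1.val < H := fun d => c (hside.2 d)
      omega

/-- A piece stays in one half of the period. -/
lemma addr_half {hS : S.Nonempty} {H : ℕ} [NeZero H] {ω : Fin H → Col S} {Lm L m : ℕ}
    {n : Fin D → ℤ} (hL : L * m = Lm) {a : ZMod (2 * H) × ℕ} (ha : a ∈ slots hS ω L n) :
    addr Lm m a + m ≤ 2 * H * Lm / 2 ∨
      (2 * H * Lm / 2 ≤ addr Lm m a ∧ addr Lm m a + m ≤ 2 * H * Lm) := by
  have h1 : a.2 * m + m ≤ Lm := by
    rw [← hL, ← Nat.succ_mul]
    exact Nat.mul_le_mul_right _ (mem_slots.1 ha).2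
  have h2 : (a.1.val + 1) * Lm ≤ 2 * H * Lm := Nat.mul_le_mul_right _ (ZMod.val_lt a.1)
  rw [show 2 * H * Lm / 2 = H * Lm by rw [mul_assoc, Nat.mul_div_cancel_left _ two_pos]]
  simp only [addr]
  rcases Nat.lt_or_ge a.1.val H with c | c
  · left
    have := Nat.mul_le_mul_right Lm c
    rw [Nat.succ_mul] at this
    omega
  · right
    have := Nat.mul_le_mul_right Lm c
    rw [Nat.add_mul, one_mul] at h2
    omega

end Vale.Agent.P110.Exist.Tiling
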